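import Vale.Agent.P092.H35.Rp.Cls
import Vale.Agent.P092.H213.Rp.Defs
import Mathlib.LinearAlgebra.Eigenspace.Zero

/-!
P092, project RP (helper35): from the class of the statement to the letters of the proof.
-/

set_option linter.all false

open Filter Topology Module

namespace Vale.Agent.P092.H35.Rp

open Vale.Agent.P092.H213.Rp

section alg

variable {k L : Type} [Field k] [LieRing L] [LieAlgebra k L]

theorem ad_coe (x : L) : ⇑(LieAlgebra.ad k L x) = fun z : L => ⁅x, z⁆ := rfl

theorem iter_eq (x : L) (i : ℕ) (y : L) :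
    (fun z : L => ⁅x, z⁆)^[i] y = ((LieAlgebra.ad k L x) ^ i) y := by
  rw [Module.End.pow_apply, ad_coe]

theorem pow_finrank_eq_zero [Module.Finite k L] {X : Module.End k L} (h : IsNilpotent X) :
    X ^ finrank k L = 0 := by
  have h1 := LinearMap.aeval_self_charpoly X
  rwa [h.charpoly_eq_X_pow_finrank, map_pow, Polynomial.aeval_X] at h1

/-- The exponential may be computed with any vanishing power. -/
theorem ex_eq [Module.Finite k L] {X : Module.End k L} {m : ℕ} (h : X ^ m = 0) :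
    ex X = ∑ i ∈ Finset.range m, ((i.factorial : k)⁻¹) • X ^ i := by
  have h1 : X ^ finrank k L = 0 := pow_finrank_eq_zero ⟨m, h⟩
  have key : ∀ a b : ℕ, X ^ a = 0 → a ≤ b → ∑ i ∈ Finset.range b, ((i.factorial : k)⁻¹) • X ^ i =
      ∑ i ∈ Finset.range a, ((i.factorial : k)⁻¹) • X ^ i := by
    intro a b ha hab
    symm
    refine Finset.sum_subset (Finset.range_mono hab) fun i _ hi => ?_
    have h2 : a ≤ i := by simpa using hi
    rw [pow_eq_zero_of_le h2 ha, smul_zero]
  show ∑ i ∈ Finset.range (finrank k L + 1), ((i.factorial : k)⁻¹) • X ^ i = _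
  rw [key _ _ h1 (Nat.le_succ _)]
  rw [← key _ (max (finrank k L) m) h1 (le_max_left _ _), key _ _ h (le_max_right _ _)]

theorem isExp_iff [Module.Finite k L] (x : L) (ψ : L → L) :
    IsExp k x ψ ↔ Nil k x ∧ ψ = ⇑(eu k x) := by
  have hs : ∀ (m : ℕ) (y : L),
      ∑ i ∈ Finset.range m, ((i.factorial : k)⁻¹) • (fun z : L => ⁅x, z⁆)^[i] y =
        (∑ i ∈ Finset.range m, ((i.factorial : k)⁻¹) • (LieAlgebra.ad k L x) ^ i) y := by
    intro m y
    rw [LinearMap.sum_apply]
    refine Finset.sum_congr rfl fun i _ => ?_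
    rw [LinearMap.smul_apply, iter_eq (k := k)]
  constructor
  · rintro ⟨m, hm, hψ⟩
    have h1 : (LieAlgebra.ad k L x) ^ m = 0 := by
      ext y
      rw [← iter_eq (k := k), hm, LinearMap.zero_apply]
    refine ⟨⟨m, h1⟩, ?_⟩
    funext y
    rw [hψ, hs]
    show _ = (ex (LieAlgebra.ad k L x)) y
    rw [ex_eq h1]
  · rintro ⟨⟨m, hm⟩, rfl⟩
    refine ⟨m, fun y => ?_, fun y => ?_⟩
    · rw [iter_eq (k := k), hm, LinearMap.zero_apply]
    · rw [hs]
      show (ex (LieAlgebra.ad k L x)) y = _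
      rw [ex_eq hm]

end alg

section top

variable {k : Type} [NontriviallyNormedField k] {L : Type} [LieRing L] [LieAlgebra k L] {n : ℕ}
  {G : Type} [Group G] [TopologicalSpace G]

/-- `ρ` identifies `G` with a group of automorphisms of `L` which contains `E(L)`. -/
structure RA (b : Basis (Fin n) k L) (ρ : G →* Module.End k L) : Prop where
  simple : LieAlgebra.IsSimple k L
  iso : ∃ x : L, x ≠ 0 ∧ Nil k x
  emb : IsEmbedding fun g => LinearMap.toMatrix b b (ρ g)
  lie : ∀ g (x y : L), ρ g ⁅x, y⁆ = ⁅ρ g x, ρ g y⁆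
  full : ∀ x : L, Nil k x → ∃ g, ρ g = eu k x

/-- The class of the statement, in the letters of the proof. -/
theorem isLie_ra (h : IsLie k G) : ∃ (L : Type) (_ : LieRing L) (_ : LieAlgebra k L) (n : ℕ)
    (b : Basis (Fin n) k L) (ρ : G →* Module.End k L), RA b ρ := by
  obtain ⟨L, i1, i2, n, b, ρ, h1, ⟨x, hx, ψ, hψ⟩, h2, h3, h4⟩ := h
  haveI : Module.Finite k L := Module.Finite.of_basis b
  refine ⟨L, i1, i2, n, b, ρ, h1, ⟨x, hx, ((isExp_iff x ψ).1 hψ).1⟩, ?_, h2, fun y hy => ?_⟩
  · have e : (fun g => LinearMap.toMatrix b b (ρ g)) =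
        fun g => (fun (i j : Fin n) => b.repr (ρ g (b j)) i) := by
      funext g i j
      exact LinearMap.toMatrix_apply b b _ i j
    show IsEmbedding fun g => (LinearMap.toMatrix b b (ρ g) : Fin n → Fin n → k)
    exact e ▸ h4
  · obtain ⟨g, hg⟩ := h3 y _ ((isExp_iff y _).2 ⟨hy, rfl⟩)
    exact ⟨g, LinearMap.ext fun z => congrFun hg z⟩

/-- The subgroup generated by the exponentials of the ad-nilpotent elements. -/
def E (ρ : G →* Module.End k L) : Subgroup G :=
  Subgroup.closure {g | ∃ x : L, Nil k x ∧ ρ g = eu k x}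

/-- `E(L)` is in the class RP0. -/
theorem RA.rp0 {b : Basis (Fin n) k L} {ρ : G →* Module.End k L} (h : RA b ρ) :
    RP0 b (ρ.comp (E ρ).subtype) where
  simple := h.simple
  iso := h.iso
  emb := h.emb.comp IsEmbedding.subtypeVal
  lie g x y := h.lie g x y
  full x hx := by
    obtain ⟨g, hg⟩ := h.full x hx
    exact ⟨⟨g, Subgroup.subset_closure ⟨x, hx, hg⟩⟩, hg⟩
  gen := Subgroup.closure_closure_coe_preimage

end top

end Vale.Agent.P092.H35.Rp
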