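import Vale.Agent.P092.H35.Rp.Cls
import Mathlib.LinearAlgebra.Basis.Defs
import Mathlib.LinearAlgebra.Basis.Basic
import Mathlib.Topology.Algebra.Group.Basic

/-!
P092, project RP (helper35): the class `IsLie` depends only on the topological field.
-/

set_option linter.all false

open Module

namespace Vale.Agent.P092.H35.Rp

theorem IsLie.trans {k k' G : Type} [Field k] [TopologicalSpace k] [Field k'] [TopologicalSpace k']
    [Group G] [TopologicalSpace G] (e : k ≃+* k') (he : Continuous e) (he' : Continuous e.symm)
    (h : IsLie k G) : IsLie k' G := by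
  obtain ⟨L, i1, i2, n, b, ρ, hs, ⟨x, hx, ψ, hψ⟩, hl, hf, hemb⟩ := h
  letI m' : Module k' L := Module.compHom L (e.symm : k' →+* k)
  have hsm : ∀ (c : k') (x : L), c • x = e.symm c • x := fun c x => rfl
  have hsm' : ∀ (c : k) (x : L), e c • x = c • x := fun c x => by
    rw [hsm, RingEquiv.symm_apply_apply]
  letI a' : LieAlgebra k' L := { lie_smul := fun c x y => by
                                  rw [hsm, hsm]
                                  exact lie_smul (e.symm c) x y }
  let b' : Basis (Fin n) k' L := b.mapCoeffs e hsm'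
  have hb' : ∀ i, b' i = b i := fun i => b.mapCoeffs_apply e hsm' i
  have hrep : ∀ (x : L) (i : Fin n), b'.repr x i = e (b.repr x i) := by
    intro x i
    have h1 : x = ∑ j, e (b.repr x j) • b' j := by
      conv_lhs => rw [← b.sum_repr x]
      refine Finset.sum_congr rfl fun j _ => ?_
      rw [hb', hsm']
    conv_lhs => rw [h1]
    exact congrFun (b'.repr_sum_self fun j => e (b.repr x j)) i
  let ρ' : G →* Module.End k' L :=
    { toFun := fun g =>
        { toFun := ρ g
          map_add' := fun x y => map_add (ρ g) x y
          map_smul' := fun c x => by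
            rw [hsm, map_smul]
            rfl }
      map_one' := by
        ext x
        show ρ 1 x = x
        rw [map_one]; rfl
      map_mul' := fun g g' => by
        ext x
        show ρ (g * g') x = ρ g (ρ g' x)
        rw [map_mul]; rfl }
  have hρ' : ∀ g x, ρ' g x = ρ g x := fun g x => rfl
  have hexp : ∀ (x : L) (ψ : L → L), IsExp k x ψ ↔ IsExp k' x ψ := by
    intro x ψ
    have h0 : ∀ (m : ℕ) (y : L),
        ∑ i ∈ Finset.range m, ((i.factorial : k')⁻¹) • (fun z : L => ⁅x, z⁆)^[i] y =
          ∑ i ∈ Finset.range m, ((i.factorial : k)⁻¹) • (fun z : L => ⁅x, z⁆)^[i] y := by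
      intro m y
      refine Finset.sum_congr rfl fun i _ => ?_
      rw [hsm, map_inv₀, map_natCast]
    constructor
    · rintro ⟨m, h1, h2⟩
      exact ⟨m, h1, fun y => by rw [h0, h2]⟩
    · rintro ⟨m, h1, h2⟩
      exact ⟨m, h1, fun y => by rw [← h0, h2]⟩
  refine ⟨L, i1, a', n, b', ρ', ⟨?_, hs.non_abelian⟩, ⟨x, hx, ψ, (hexp x ψ).1 hψ⟩,
    fun g x y => hl g x y, fun x ψ hψ => hf x ψ ((hexp x ψ).2 hψ), ?_⟩
  · intro I
    let J : LieIdeal k L :=
      { carrier := I
        add_mem' := fun {x y} hx hy => I.add_mem hx hy
        zero_mem' := I.zero_mem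
        smul_mem' := fun c x hx => by
          have := I.smul_mem (e c) hx
          rwa [hsm'] at this
        lie_mem := fun {x m} hm => I.lie_mem hm }
    rcases hs.eq_bot_or_eq_top J with h1 | h1
    · left
      rw [LieSubmodule.eq_bot_iff]
      intro x hx
      exact (LieSubmodule.eq_bot_iff J).1 h1 x hx
    · right
      rw [eq_top_iff]
      intro x _
      have : x ∈ J := by rw [h1]; exact LieSubmodule.mem_top x
      exact this
  · have e1 : (fun g (i j : Fin n) => b'.repr (ρ' g (b' j)) i) =
        (fun (M : Fin n → Fin n → k) i j => e (M i j)) ∘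
          fun g (i j : Fin n) => b.repr (ρ g (b j)) i := by
      funext g i j
      show _ = e (b.repr (ρ g (b j)) i)
      rw [hrep, hρ', hb']
    rw [e1]
    let H : k ≃ₜ k' := { toEquiv := e.toEquiv, continuous_toFun := he, continuous_invFun := he' }
    have h2 : Topology.IsEmbedding (fun (M : Fin n → Fin n → k) i j => e (M i j)) :=
      (Homeomorph.piCongrRight fun _ : Fin n => Homeomorph.piCongrRight fun _ : Fin n => H).isEmbedding
    exact h2.comp hemb

end Vale.Agent.P092.H35.Rp
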