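import Mathlib.Algebra.Lie.Semisimple.Defs
import Mathlib.LinearAlgebra.Basis.Defs
import Mathlib.Topology.Homeomorph.Defs
import Mathlib.Topology.MetricSpace.ProperSpace
import Mathlib.Analysis.Normed.Field.Basic
import Mathlib.Analysis.Normed.Group.Ultra

/-!
P092, project RP (helper35): groups of automorphisms of simple Lie algebras.  Only definitions.
-/

namespace Vale.Agent.P092.H35.Rp

/-- `ψ` is the exponential of the nilpotent endomorphism `y ↦ [x, y]`. -/
def IsExp (k : Type) {L : Type} [Field k] [LieRing L] [LieAlgebra k L] (x : L) (ψ : L → L) : Prop :=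
  ∃ m : ℕ, (∀ y : L, (fun z : L => ⁅x, z⁆)^[m] y = 0) ∧
    ∀ y : L, ψ y = ∑ i ∈ Finset.range m, ((i.factorial : k)⁻¹) • (fun z : L => ⁅x, z⁆)^[i] y

/-- `G` is a group of automorphisms of a simple Lie algebra `L` over `k` which contains the
exponentials of all ad-nilpotent elements of `L` (with the topology of the matrix coefficients), and
`L` has an ad-nilpotent element `x ≠ 0`. -/
def IsLie (k G : Type) [Field k] [TopologicalSpace k] [Group G] [TopologicalSpace G] : Prop :=
  ∃ (L : Type) (_ : LieRing L) (_ : LieAlgebra k L) (n : ℕ) (b : Module.Basis (Fin n) k L)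
    (ρ : G →* Module.End k L), LieAlgebra.IsSimple k L ∧ (∃ x : L, x ≠ 0 ∧ ∃ ψ, IsExp k x ψ) ∧
    (∀ g (x y : L), ρ g ⁅x, y⁆ = ⁅ρ g x, ρ g y⁆) ∧ (∀ x ψ, IsExp k x ψ → ∃ g, ⇑(ρ g) = ψ) ∧
    Topology.IsEmbedding fun g (i j : Fin n) => b.repr (ρ g (b j)) i

/-- `G` is such a group over a non-archimedean local field of characteristic zero. -/
def IsPad (G : Type) [Group G] [TopologicalSpace G] : Prop :=
  ∃ (k : Type) (_ : NontriviallyNormedField k), ProperSpace k ∧ IsUltrametricDist k ∧ CharZero k ∧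
    IsLie k G

end Vale.Agent.P092.H35.Rp
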