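import Vale.Agent.P092.H35.Rp.Qfp
import Vale.Agent.P092.H35.Rp.Trans
import Vale.Agent.P092.H213.Nd.Sc
import Vale.Agent.P092.UN.ClsL
import Mathlib.Analysis.Complex.Basic

/-!
P092, project RP (helper35), [RP-F] part 6: the class `UN.IsLieG`: an open normal subgroup of finite
index which is a factor, given the real case.
-/

set_option linter.all false

open Filter Topology Module

namespace Vale.Agent.P092.H35.Rp

/-- `G` has an open normal subgroup of finite index which is a factor. -/
def Sub (G : Type) [Group G] [TopologicalSpace G] : Prop :=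
  IsTopologicalGroup G ∧ ∃ N : Subgroup G, N.Normal ∧ N.FiniteIndex ∧ IsOpen (N : Set G) ∧
    ∃ r, QC.QF N r

theorem trans_norm {k k' G : Type} [NontriviallyNormedField k] [NontriviallyNormedField k']
    [Group G] [TopologicalSpace G] (e : k ≃+* k') (he : ∀ x, ‖e x‖ = ‖x‖) (h : IsLie k G) :
    IsLie k' G :=
  h.trans e (AddMonoidHomClass.isometry_of_norm e he).continuous
    (AddMonoidHomClass.isometry_of_norm e.symm fun x => by
      rw [← he (e.symm x), e.apply_symm_apply]).continuous

/-- The two kinds of local fields of characteristic zero. -/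
theorem lieG_cases {G : Type} [Group G] [TopologicalSpace G] (h : UN.IsLieG G) :
    IsLie ℝ G ∨ IsPad G := by
  obtain ⟨k, i, hp, hl, h0, h1⟩ := h
  rcases hl with ⟨φ, hφ⟩ | ⟨φ, hφ⟩ | hu
  · exact Or.inl (trans_norm φ hφ h1)
  · exact Or.inl (H213.Nd.isLie_restrict (K := ℝ) (k := ℂ) (trans_norm φ hφ h1))
  · exact Or.inr ⟨k, i, hp, hu, h0, h1⟩

theorem lieG_sub (hR : ∀ (G : Type) [Group G] [TopologicalSpace G], IsLie ℝ G → Sub G)
    {G : Type} [Group G] [TopologicalSpace G] (h : UN.IsLieG G) : Sub G := by
  rcases lieG_cases h with h1 | h1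
  · exact hR G h1
  · exact sub_pad h1

end Vale.Agent.P092.H35.Rp
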