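import Mathlib.Topology.Algebra.OpenSubgroup
import Mathlib.Topology.Instances.Matrix
import Mathlib.Analysis.Normed.Group.Ultra
import Mathlib.Analysis.Normed.Field.Basic
import Mathlib.Analysis.Normed.Ring.Lemmas
import Mathlib.Topology.MetricSpace.ProperSpace
import Mathlib.LinearAlgebra.Matrix.NonsingularInverse
import Mathlib.Topology.Algebra.Group.Matrix
import Mathlib.Analysis.Matrix.Normed

/-!
P092, project RP (helper35), [RP-F] part 2: topology of closed matrix groups over non-archimedean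
local fields: topological group, compact open basis.
-/

set_option linter.all false

open Filter Topology

namespace Vale.Agent.P092.H35.Rp

variable {k : Type} [NontriviallyNormedField k] {n : ℕ} {G : Type} [Group G] [TopologicalSpace G]
  {φ : G →* Matrix (Fin n) (Fin n) k}

theorem val_inv (g : G) : φ g⁻¹ = (φ g)⁻¹ := by
  rw [eq_comm]
  apply Matrix.inv_eq_left_inv
  rw [← map_mul, inv_mul_cancel, map_one]

theorem det_ne (g : G) : (φ g).det ≠ 0 := by
  intro h
  have h1 : (φ g * φ g⁻¹).det = 1 := by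
    rw [← map_mul, mul_inv_cancel, map_one, Matrix.det_one]
  rw [Matrix.det_mul, h, zero_mul] at h1
  exact zero_ne_one h1

/-- A group embedded in the matrices is a topological group. -/
theorem topGroup (hφ : IsEmbedding φ) : IsTopologicalGroup G where
  continuous_mul := by
    rw [hφ.isInducing.continuous_iff]
    have e : (φ ∘ fun p : G × G => p.1 * p.2) = fun p => φ p.1 * φ p.2 := by
      funext p
      exact map_mul φ _ _
    rw [e]
    exact Continuous.matrix_mul (hφ.continuous.comp continuous_fst)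
      (hφ.continuous.comp continuous_snd)
  continuous_inv := by
    rw [hφ.isInducing.continuous_iff]
    have e : (φ ∘ fun g : G => g⁻¹) = fun g => ((φ g).det)⁻¹ • (φ g).adjugate := by
      funext g
      show φ g⁻¹ = _
      rw [val_inv, Matrix.inv_def, Ring.inverse_eq_inv']
    rw [e]
    have h1 : Continuous fun g => ((φ g).det)⁻¹ :=
      hφ.continuous.matrix_det.inv₀ fun g => det_ne g
    have h2 : Continuous fun g => (φ g).adjugate := hφ.continuous.matrix_adjugate
    exact h1.smul h2

theorem cont_entry (hφ : IsEmbedding φ) (i j : Fin n) : Continuous fun g => φ g i j :=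
  hφ.continuous.matrix_elem i j

theorem t2 (hφ : IsEmbedding φ) : T2Space G := hφ.t2Space

theorem sc [ProperSpace k] (hφ : IsEmbedding φ) : SecondCountableTopology G := by
  haveI : SecondCountableTopology k := inferInstance
  haveI : SecondCountableTopology (Matrix (Fin n) (Fin n) k) :=
    inferInstanceAs (SecondCountableTopology (Fin n → Fin n → k))
  exact hφ.secondCountableTopology

theorem lc [ProperSpace k] (hφ : IsClosedEmbedding φ) : LocallyCompactSpace G := by
  haveI : LocallyCompactSpace (Matrix (Fin n) (Fin n) k) :=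
    inferInstanceAs (LocallyCompactSpace (Fin n → Fin n → k))
  exact hφ.locallyCompactSpace

theorem isCompact_bd [ProperSpace k] (C : ℝ) :
    IsCompact {A : Matrix (Fin n) (Fin n) k | ∀ i j, ‖A i j‖ ≤ C} := by
  have e : {A : Matrix (Fin n) (Fin n) k | ∀ i j, ‖A i j‖ ≤ C} =
      Set.pi Set.univ fun _ => Set.pi Set.univ fun _ => Metric.closedBall (0 : k) C := by
    ext A
    constructor
    · intro h i _ j _
      exact mem_closedBall_zero_iff.2 (h i j)
    · intro h i j
      exact mem_closedBall_zero_iff.1 (h i trivial j trivial)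
  rw [e]
  exact isCompact_univ_pi fun _ => isCompact_univ_pi fun _ => isCompact_closedBall _ _

/-- The sets of elements with bounded entries are compact. -/
theorem isCompact_norm_le [ProperSpace k] (hφ : IsClosedEmbedding φ) (C : ℝ) :
    IsCompact {g : G | ∀ i j, ‖φ g i j‖ ≤ C} := by
  have h := hφ.isCompact_preimage (isCompact_bd (k := k) (n := n) C)
  exact h

section nb

attribute [local instance] Matrix.normedAddCommGroup

theorem exists_ball {U : Set (Matrix (Fin n) (Fin n) k)} (hU : U ∈ 𝓝 (1 : Matrix (Fin n) (Fin n) k)) :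
    ∃ δ > 0, ∀ A : Matrix (Fin n) (Fin n) k,
      (∀ i j, ‖A i j - (1 : Matrix (Fin n) (Fin n) k) i j‖ < δ) → A ∈ U := by
  obtain ⟨δ, hδ, h⟩ := Metric.mem_nhds_iff.1 hU
  refine ⟨δ, hδ, fun A hA => h ?_⟩
  rw [Metric.mem_ball, dist_eq_norm, Matrix.norm_lt_iff hδ]
  exact hA

end nb

section ultra

variable [IsUltrametricDist k]

/-- The congruence subgroups. -/
def cong (φ : G →* Matrix (Fin n) (Fin n) k) (ε : ℝ) (h0 : 0 ≤ ε) (h1 : ε ≤ 1) : Subgroup G where
  carrier := {g | (∀ i j, ‖φ g i j - (1 : Matrix (Fin n) (Fin n) k) i j‖ ≤ ε) ∧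
    ∀ i j, ‖φ g⁻¹ i j - (1 : Matrix (Fin n) (Fin n) k) i j‖ ≤ ε}
  one_mem' := by
    constructor <;> intro i j
    · rw [map_one, sub_self, norm_zero]
      exact h0
    · rw [inv_one, map_one, sub_self, norm_zero]
      exact h0
  mul_mem' := by
    have key : ∀ A B : Matrix (Fin n) (Fin n) k,
        (∀ i j, ‖A i j - (1 : Matrix (Fin n) (Fin n) k) i j‖ ≤ ε) →
        (∀ i j, ‖B i j - (1 : Matrix (Fin n) (Fin n) k) i j‖ ≤ ε) →
        ∀ i j, ‖(A * B) i j - (1 : Matrix (Fin n) (Fin n) k) i j‖ ≤ ε := by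
      intro A B hA hB i j
      have hone : ∀ i j, ‖(1 : Matrix (Fin n) (Fin n) k) i j‖ ≤ 1 := by
        intro i j
        rw [Matrix.one_apply]
        split_ifs
        · rw [norm_one]
        · rw [norm_zero]
          exact zero_le_one
      have hB1 : ∀ i j, ‖B i j‖ ≤ 1 := by
        intro i j
        have e : B i j = (B i j - (1 : Matrix (Fin n) (Fin n) k) i j) +
          (1 : Matrix (Fin n) (Fin n) k) i j := by ring
        rw [e]
        exact (IsUltrametricDist.norm_add_le_max _ _).trans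
          (max_le ((hB i j).trans h1) (hone i j))
      have e : (A * B) i j - (1 : Matrix (Fin n) (Fin n) k) i j =
          ((A - 1) * B) i j + (B i j - (1 : Matrix (Fin n) (Fin n) k) i j) := by
        have : A * B - 1 = (A - 1) * B + (B - 1) := by
          rw [sub_mul, one_mul]
          abel
        have h2 := congrFun (congrFun this i) j
        exact h2
      rw [e]
      refine (IsUltrametricDist.norm_add_le_max _ _).trans (max_le ?_ (hB i j))
      rw [Matrix.mul_apply]
      refine IsUltrametricDist.norm_sum_le_of_forall_le_of_nonneg h0 fun l _ => ?_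
      rw [norm_mul]
      calc ‖(A - 1) i l‖ * ‖B l j‖ ≤ ε * 1 :=
            mul_le_mul (hA i l) (hB1 l j) (norm_nonneg _) h0
        _ = ε := mul_one _
    rintro g g' ⟨h2, h3⟩ ⟨h4, h5⟩
    constructor
    · rw [map_mul]
      exact key _ _ h2 h4
    · rw [mul_inv_rev, map_mul]
      exact key _ _ h5 h3
  inv_mem' := by
    rintro g ⟨h2, h3⟩
    refine ⟨h3, ?_⟩
    rw [inv_inv]
    exact h2

theorem mem_cong {ε : ℝ} (h0 : 0 ≤ ε) (h1 : ε ≤ 1) {g : G} : g ∈ cong φ ε h0 h1 ↔
    (∀ i j, ‖φ g i j - (1 : Matrix (Fin n) (Fin n) k) i j‖ ≤ ε) ∧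
    ∀ i j, ‖φ g⁻¹ i j - (1 : Matrix (Fin n) (Fin n) k) i j‖ ≤ ε := Iff.rfl

theorem isOpen_cong (hφ : IsEmbedding φ) {ε : ℝ} (h0 : 0 < ε) (h1 : ε ≤ 1) :
    IsOpen (cong φ ε h0.le h1 : Set G) := by
  haveI := topGroup hφ
  apply Subgroup.isOpen_of_mem_nhds _ (g := 1)
  have h2 : ∀ i j, ∀ᶠ g : G in 𝓝 1, ‖φ g i j - (1 : Matrix (Fin n) (Fin n) k) i j‖ ≤ ε := by
    intro i j
    have hc : Continuous fun g : G => ‖φ g i j - (1 : Matrix (Fin n) (Fin n) k) i j‖ :=
      ((cont_entry hφ i j).sub continuous_const).norm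
    have := hc.tendsto 1
    rw [map_one, sub_self, norm_zero] at this
    exact (this.eventually (gt_mem_nhds h0)).mono fun _ h => h.le
  have h3 : ∀ᶠ g : G in 𝓝 1, ∀ i j, ‖φ g i j - (1 : Matrix (Fin n) (Fin n) k) i j‖ ≤ ε :=
    eventually_all.2 fun i => eventually_all.2 fun j => h2 i j
  have h4 : ∀ᶠ g : G in 𝓝 1, ∀ i j, ‖φ g⁻¹ i j - (1 : Matrix (Fin n) (Fin n) k) i j‖ ≤ ε := by
    have : Tendsto (fun g : G => g⁻¹) (𝓝 1) (𝓝 1) := by
      have := (continuous_inv (G := G)).tendsto 1
      rwa [inv_one] at this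
    exact this.eventually h3
  exact h3.and h4

theorem isCompact_cong [ProperSpace k] (hφ : IsClosedEmbedding φ) {ε : ℝ} (h0 : 0 < ε)
    (h1 : ε ≤ 1) : IsCompact (cong φ ε h0.le h1 : Set G) := by
  haveI := topGroup hφ.isEmbedding
  refine (isCompact_norm_le hφ 1).of_isClosed_subset
    ((cong φ ε h0.le h1).isClosed_of_isOpen (isOpen_cong hφ.isEmbedding h0 h1)) ?_
  intro g hg i j
  have e : φ g i j = (φ g i j - (1 : Matrix (Fin n) (Fin n) k) i j) +
    (1 : Matrix (Fin n) (Fin n) k) i j := by ring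
  rw [e]
  refine (IsUltrametricDist.norm_add_le_max _ _).trans (max_le ((hg.1 i j).trans h1) ?_)
  rw [Matrix.one_apply]
  split_ifs
  · rw [norm_one]
  · rw [norm_zero]
    exact zero_le_one

/-- **The compact open subgroups form a basis of neighbourhoods of `1`.** -/
theorem basis [ProperSpace k] (hφ : IsClosedEmbedding φ) {V : Set G} (hV : V ∈ 𝓝 (1 : G)) :
    ∃ L : Subgroup G, IsOpen (L : Set G) ∧ IsCompact (L : Set G) ∧ (L : Set G) ⊆ V := by
  have h1 : V ∈ comap φ (𝓝 (φ 1)) := by
    rwa [← hφ.isInducing.nhds_eq_comap]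
  obtain ⟨U, hU, hUV⟩ := mem_comap.1 h1
  rw [map_one] at hU
  obtain ⟨δ, hδ, hδU⟩ := exists_ball hU
  have h0 : 0 < min 1 (δ / 2) := lt_min one_pos (half_pos hδ)
  refine ⟨cong φ _ h0.le (min_le_left _ _), isOpen_cong hφ.isEmbedding h0 _,
    isCompact_cong hφ h0 _, fun g hg => hUV (hδU _ fun i j => ?_)⟩
  exact (hg.1 i j).trans_lt ((min_le_right _ _).trans_lt (half_lt_self hδ))

end ultra

end Vale.Agent.P092.H35.Rp
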