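import Vale.Agent.P092.PA.FacInst
import Vale.Agent.P092.H15.HMAbs

/-!
P092, project RP (helper35), [RP-F] part 1: a simple group without centre, as a factor.
-/

set_option linter.all false

open Filter Topology

namespace Vale.Agent.P092.H35.Rp

open Vale.Agent.P092.H15 (HMG)

/-- the output of the row P3 -/
structure B3 (G : Type) [Group G] [TopologicalSpace G] : Prop where
  top : IsTopologicalGroup G
  t2 : T2Space G
  lc : LocallyCompactSpace G
  sc : SecondCountableTopology G
  simple : ∀ N : Subgroup G, N.Normal → N = ⊥ ∨ N = ⊤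
  center : Subgroup.center G = ⊥
  cent : ∀ g : G, g ≠ 1 → ¬ IsOpen ((Subgroup.centralizer {g} : Subgroup G) : Set G)
  hom : ∀ (A : Type) [CommGroup A] (f : G →* A), f = 1
  recu : PA.Rec G

section

variable {G : Type} [Group G] [TopologicalSpace G]

/-- Recurrence of conjugation in the quotient by the (trivial) centre. -/
theorem rec_quo [IsTopologicalGroup G] (hc : Subgroup.center G = ⊥) (h : PA.Rec G) :
    PA.Rec (G ⧸ Subgroup.center G) := by
  have hinj : Function.Injective (QuotientGroup.mk : G → G ⧸ Subgroup.center G) := by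
    intro x y hxy
    have h1 : x⁻¹ * y ∈ Subgroup.center G := QuotientGroup.eq.1 hxy
    rw [hc, Subgroup.mem_bot] at h1
    exact (inv_mul_eq_one.1 h1)
  intro z hz
  induction z using QuotientGroup.induction_on with
  | H s =>
    have hs : s ≠ 1 := by
      rintro rfl
      exact hz rfl
    obtain ⟨W, hW, a, ha⟩ := h s hs
    refine ⟨QuotientGroup.mk '' W, ?_, fun i => (a i : G ⧸ Subgroup.center G), ?_⟩
    · exact QuotientGroup.isOpenMap_coe.image_mem_nhds hW
    · intro i j hij
      have e : ∀ l : ℕ, (fun y => (a l : G ⧸ Subgroup.center G) * y * (a l : G ⧸ _)⁻¹) ''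
          (QuotientGroup.mk '' W) = QuotientGroup.mk '' ((fun y => a l * y * (a l)⁻¹) '' W) := by
        intro l
        rw [Set.image_image, Set.image_image]
        rfl
      have h1 := ha hij
      show Disjoint ((fun y => (a i : G ⧸ Subgroup.center G) * y * (a i : G ⧸ _)⁻¹) ''
          (QuotientGroup.mk '' W)) ((fun y => (a j : G ⧸ Subgroup.center G) * y *
          (a j : G ⧸ _)⁻¹) '' (QuotientGroup.mk '' W))
      rw [e i, e j]
      exact (Set.disjoint_image_iff hinj).2 h1

/-- The facts on the factor. -/
theorem facS_of (h : B3 G) (hnc : ¬ CompactSpace G) (hm : HMG G) :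
    PA.FacS (G ⧸ Subgroup.center G) := by
  haveI := h.top
  haveI := h.t2
  haveI := h.lc
  haveI := h.sc
  have hfin : ((Subgroup.center G : Subgroup G) : Set G).Finite := by
    rw [h.center]
    exact Set.finite_singleton 1
  haveI hcl : IsClosed ((Subgroup.center G : Subgroup G) : Set G) := hfin.isClosed
  exact
  { top := inferInstance
    lc := inferInstance
    sc := inferInstance
    t2 := inferInstance
    nc := PA.nc_quot _ hfin.isCompact hnc
    simple := PA.simple_quot fun N hN => (h.simple N hN).imp (fun e => by rw [e]; exact bot_le) id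
    cent := PA.cent_quot hfin fun g hg => by
      by_contra h1
      refine h.cent g (fun e => h1 (by rw [e]; exact Subgroup.one_mem _)) ?_
      exact Subgroup.isOpen_of_mem_nhds _ hg
    hom := PA.hom_quot (fun A _ f => h.hom A f) _
    recu := rec_quo h.center h.recu
    hm := (PA.hm_of_howeMoore hm.howeMoore).quot _ }

end

end Vale.Agent.P092.H35.Rp
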