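import Vale.Agent.P092.H35.Rp.Qf
import Vale.Agent.P092.H35.Rp.ClsQ
import Vale.Agent.P092.H144.Rp.Main
import Vale.Agent.P092.H45.Rp.Main
import Vale.Agent.P092.H237.Rp.Hmg
import Vale.Agent.P092.H542.Rp.P4
import Vale.Agent.P092.H660.Rp.Chn
import Vale.Agent.P092.H790.TgtRp
import Vale.Agent.P092.H710.Rp.Kak

/-!
P092, project RP (helper35), [RP-F] part 4: `RP b ρ → ∃ r, QF G r`, given the volume bound.
-/

set_option linter.all false

open Filter Topology Module

namespace Vale.Agent.P092.H35.Rp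

open Vale.Agent.P092.H213.Rp
open Vale.Agent.P092.H15 (HMG)
open Vale.Agent.P092.H264 (Chn)
open Vale.Agent.P092.H515 (Tgt)
open Vale.Agent.P092.QC (QF Td)

variable {k : Type} [NontriviallyNormedField k] [ProperSpace k] [CharZero k] {L : Type}
  [LieRing L] [LieAlgebra k L] {n : ℕ} {G : Type} [Group G] [TopologicalSpace G]
  {b : Basis (Fin n) k L} {ρ : G →* Module.End k L}

theorem b3 (h : RP b ρ) : B3 G where
  top := H213.Rp.topGroup h.emb.isEmbedding
  t2 := H213.Rp.t2Space h.emb.isEmbedding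
  lc := H213.Rp.locComp h.emb
  sc := H213.Rp.secCount h.emb.isEmbedding
  simple := H144.Rp.simple h
  center := H144.Rp.center_bot h
  cent := H144.Rp.cent_rp h
  hom := H144.Rp.hom_rp h
  recu := H144.Rp.recu h

theorem hmg (h : RP b ρ) : HMG G :=
  H237.Rp.hmg h fun x hx h0 => H542.Rp.gen_of h (H144.Rp.simple h) x hx h0

theorem tgt [IsUltrametricDist k] (h : RP b ρ) {r : ℕ} {b' : Basis (Fin n) k L}
    {wt : Fin n → Fin r → ℤ} {E F H : Fin r → L} (hR : Rt b' wt E F H) : Tgt G r := by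
  obtain ⟨x, hx⟩ := NormedField.exists_one_lt_norm k
  have h0 : x ≠ 0 := norm_pos_iff.1 (one_pos.trans hx)
  obtain ⟨C, hC⟩ := H710.Rp.car h hR (Units.mk0 x h0) hx
  exact H790.Mrg.tgt_rp h b' wt (Units.mk0 x h0) C hC

/-- **The factor.** -/
theorem qf_rp [IsUltrametricDist k] (h : RP b ρ)
    (hv : ∃ K : Subgroup G, IsOpen (K : Set G) ∧ IsCompact (K : Set G) ∧
      ∀ U W : Subgroup G, IsOpen (U : Set G) → IsOpen (W : Set G) → IsCompact (W : Set G) →
        U ≤ W → U ≤ K → U.relIndex W ≤ U.relIndex K) : ∃ r, QF G r := by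
  obtain ⟨r, b', wt, E, F, H, hR⟩ := H45.Rp.p6 h
  have h' : RP b' ρ :=
    { simple := h.simple, iso := h.iso, emb := H790.Mrg.emb_basis b b' h.emb, lie := h.lie,
      full := h.full, gen := h.gen }
  exact ⟨r, qf_of h (b3 h) (hmg h) hR.pos (H660.Rp.chn h' hR) (tgt h hR) hv⟩

end Vale.Agent.P092.H35.Rp
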