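import Vale.Agent.P092.H35.Rp.Fac
import Vale.Agent.P092.H35.Rp.Bas
import Vale.Agent.P092.H213.Rp.Defs
import Vale.Agent.P092.QC.Final
import Vale.Agent.P092.H678.GoodCl

/-!
P092, project RP (helper35), [RP-F] part 3: the assembly `QF G r` from the rows.
-/

set_option linter.all false

open Filter Topology Module

namespace Vale.Agent.P092.H35.Rp

open Vale.Agent.P092.H213.Rp
open Vale.Agent.P092.H15 (HMG)
open Vale.Agent.P092.H264 (Chn)
open Vale.Agent.P092.H515 (Tgt)
open Vale.Agent.P092.QC (QF Td)

variable {k : Type} [NontriviallyNormedField k] {L : Type} [LieRing L] [LieAlgebra k L] {n r : ℕ}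
  {G : Type} [Group G] [TopologicalSpace G]

/-- the matrix representation -/
noncomputable def mat (b : Basis (Fin n) k L) (ρ : G →* Module.End k L) :
    G →* Matrix (Fin n) (Fin n) k :=
  ((LinearMap.toMatrixAlgEquiv b).toMulEquiv.toMonoidHom).comp ρ

theorem mat_apply (b : Basis (Fin n) k L) (ρ : G →* Module.End k L) (g : G) :
    mat b ρ g = LinearMap.toMatrix b b (ρ g) := rfl

theorem emb_mat {b : Basis (Fin n) k L} {ρ : G →* Module.End k L} (h : RP b ρ) :
    IsClosedEmbedding (mat b ρ) := h.emb

/-- A chain of positive length: the group is not compact. -/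
theorem nc_of_chn (hr : 0 < r) (h : Chn G r) : ¬ CompactSpace G := by
  intro hc
  obtain ⟨C, hC⟩ := h
  have h1 := hC hr
  rw [cocompact_eq_bot] at h1
  exact (Filter.NeBot.map (inferInstance) _).ne (le_bot_iff.1 h1)

/-- **The assembly.** -/
theorem qf_of [ProperSpace k] [IsUltrametricDist k] {b : Basis (Fin n) k L}
    {ρ : G →* Module.End k L} (h : RP b ρ) (h3 : B3 G) (hm : HMG G) (hr : 0 < r) (hc : Chn G r)
    (ht : Tgt G r)
    (hv : ∃ K : Subgroup G, IsOpen (K : Set G) ∧ IsCompact (K : Set G) ∧
      ∀ U W : Subgroup G, IsOpen (U : Set G) → IsOpen (W : Set G) → IsCompact (W : Set G) →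
        U ≤ W → U ≤ K → U.relIndex W ≤ U.relIndex K) : QF G r := by
  haveI := h3.top
  haveI := h3.t2
  haveI := h3.lc
  haveI := h3.sc
  exact
  { top := h3.top
    lc := h3.lc
    sc := h3.sc
    t2 := h3.t2
    fin := by
      rw [h3.center]
      infer_instance
    fac := facS_of h3 (nc_of_chn hr hc) hm
    hmg := hm
    chn := hc
    tgt := ht
    pos := hr
    erg := Or.inr
      { basis := fun V hV => basis (emb_mat h) hV
        proper := fun W hW hne => H678.ClC.isCompact_of_hmg hm W hW hne
        vol := hv } }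

end Vale.Agent.P092.H35.Rp
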