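import Vale.Agent.P092.H35.Rp.Fin
import Vale.Agent.P092.H183.RpDat
import Vale.Agent.P092.H720.Rp.CarA

/-!
P092, project RP (helper35), [RP-F] part 5: all isotropic simple groups over non-archimedean local
fields of characteristic zero are factors; the groups between `E(L)` and `Aut(L)`.
-/

set_option linter.all false

open Filter Topology Module

namespace Vale.Agent.P092.H35.Rp

open Vale.Agent.P092.H213.Rp
open Vale.Agent.P092.QC (QF)

section

variable {k : Type} [NontriviallyNormedField k] [ProperSpace k] [CharZero k] [IsUltrametricDist k]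
  {L : Type} [LieRing L] [LieAlgebra k L] {n : ℕ} {G : Type} [Group G] [TopologicalSpace G]
  {b : Basis (Fin n) k L} {ρ : G →* Module.End k L}

/-- **Every group of the class `RP` is a factor.** -/
theorem qf_padic (h : RP b ρ) : ∃ r, QF G r := by
  haveI : Module.Finite k L := Module.Finite.of_basis b
  exact qf_rp h (H183.RD.vol_rp h)

end

theorem RA.conv {k : Type} [NontriviallyNormedField k] {L : Type} [LieRing L] [LieAlgebra k L]
    {n : ℕ} {G : Type} [Group G] [TopologicalSpace G] {b : Basis (Fin n) k L}
    {ρ : G →* Module.End k L} (h : RA b ρ) : H720.Rp.RA b ρ :=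
  { simple := h.simple, iso := h.iso, emb := h.emb, lie := h.lie, full := h.full }

/-- **The open normal subgroup of finite index.** -/
theorem sub_padic {k G : Type} [NontriviallyNormedField k] [ProperSpace k] [CharZero k]
    [IsUltrametricDist k] [Group G] [TopologicalSpace G] (h : IsLie k G) :
    IsTopologicalGroup G ∧ ∃ N : Subgroup G, N.Normal ∧ N.FiniteIndex ∧ IsOpen (N : Set G) ∧
      ∃ r, QF N r := by
  obtain ⟨L, i1, i2, n, b, ρ, h0⟩ := isLie_ra h
  haveI : Module.Finite k L := Module.Finite.of_basis b
  have h1 : H720.Rp.RA b ρ := h0.conv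
  have ht : IsTopologicalGroup G := H213.Rp.topGroup h1.emb
  refine ⟨ht, H720.Rp.Ng ρ, h1.normal, h1.fin', h1.opn, ?_⟩
  exact qf_padic h1.rp0.rp

/-- **The class `IsPad`.** -/
theorem sub_pad {G : Type} [Group G] [TopologicalSpace G] (h : IsPad G) :
    IsTopologicalGroup G ∧ ∃ N : Subgroup G, N.Normal ∧ N.FiniteIndex ∧ IsOpen (N : Set G) ∧
      ∃ r, QF N r := by
  obtain ⟨k, i, h1, h2, h3, h4⟩ := h
  exact sub_padic h4

end Vale.Agent.P092.H35.Rp
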