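import Vale.Agent.P092.H35.Rp.Sub
import Vale.Agent.P092.H259.Ad.Qf
import Vale.Agent.P092.H899.Ad8b

/-!
P092, project RP (helper35), the real case: `E(L)` is the identity component of the automorphism group
of the real simple Lie algebra `L`, so it is a factor.
-/

set_option linter.all false

open Filter Topology Module

namespace Vale.Agent.P092.H35.Rr

open Vale.Agent.P092.H213.Rp
open Vale.Agent.P092.H259.Ad (IsAdj aut)
open Vale.Agent.P092.H899.Ad (sc mem_aut)
open Vale.Agent.P092.H35.Rp (nc_of_chn isLie_ra IsLie lieG_sub)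

section

variable {L : Type} [LieRing L] [LieAlgebra ℝ L] {n : ℕ} {G : Type} [Group G] [TopologicalSpace G]
  {b : Basis (Fin n) ℝ L} {ρ : G →* Module.End ℝ L}

/-- the group is connected -/
theorem conn (h : RP b ρ) (g : G) : g ∈ connectedComponent (1 : G) := by
  haveI := H213.Rp.topGroup h.emb.isEmbedding
  have h1 : Subgroup.closure {g : G | ∃ x : L, Nil ℝ x ∧ ρ g = eu ℝ x} ≤
      Subgroup.connectedComponentOfOne G := by
    rw [Subgroup.closure_le]
    rintro g ⟨x, hx, hg⟩
    obtain ⟨w, hw, h2, h3⟩ := H144.Rp.exists_curve h hx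
    have h4 : g = w 1 := by
      apply H144.Rp.inj h
      rw [h2, one_smul, hg]
    have h5 : IsPreconnected (Set.range w) := isPreconnected_range hw
    have h6 := h5.subset_connectedComponent (x := 1) ⟨0, h3⟩
    exact h6 ⟨1, h4.symm⟩
  rw [h.gen] at h1
  exact h1 (Subgroup.mem_top g)

/-- the automorphism of the Lie algebra -/
def toEquiv (h : RP b ρ) (g : G) : L ≃ₗ⁅ℝ⁆ L where
  toFun := ρ g
  map_add' := fun x y => map_add (ρ g) x y
  map_smul' := fun c x => map_smul (ρ g) c x
  map_lie' := fun {x y} => h.lie g x y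
  invFun := ρ g⁻¹
  left_inv := fun x => by
    show (ρ g⁻¹ * ρ g) x = x
    rw [← map_mul, inv_mul_cancel, map_one]; rfl
  right_inv := fun x => by
    show (ρ g * ρ g⁻¹) x = x
    rw [← map_mul, mul_inv_cancel, map_one]; rfl

theorem toEquiv_coe (h : RP b ρ) (g : G) : ((toEquiv h g : L ≃ₗ⁅ℝ⁆ L) : L →ₗ[ℝ] L) = ρ g := by
  ext x; rfl

/-- the embedding into the automorphism group -/
noncomputable def jj (h : RP b ρ) : G →* aut (sc b) where
  toFun g := ⟨⟨LinearMap.toMatrix b b (ρ g), by
    rw [LinearMap.det_toMatrix b]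
    exact H790.Mrg.det_rp h g⟩, (mem_aut b _).2 ⟨toEquiv h g, by rw [toEquiv_coe]⟩⟩
  map_one' := by
    apply Subtype.ext
    apply Subtype.ext
    show LinearMap.toMatrix b b (ρ 1) = 1
    rw [map_one, LinearMap.toMatrix_one]
  map_mul' := fun g g' => by
    apply Subtype.ext
    apply Subtype.ext
    show LinearMap.toMatrix b b (ρ (g * g')) =
      LinearMap.toMatrix b b (ρ g) * LinearMap.toMatrix b b (ρ g')
    rw [map_mul, LinearMap.toMatrix_mul]

theorem jj_coe (h : RP b ρ) (g : G) : (jj h g).1.1 = LinearMap.toMatrix b b (ρ g) := rfl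

theorem cont_coe : Continuous fun s : aut (sc b) => s.1.1 :=
  continuous_subtype_val.comp continuous_subtype_val

theorem jj_emb (h : RP b ρ) : IsEmbedding (jj h) := by
  have h1 : Continuous (jj h) :=
    Continuous.subtype_mk (Continuous.subtype_mk h.emb.continuous _) _
  exact IsEmbedding.of_comp h1 cont_coe h.emb.isEmbedding

theorem jj_open (h : RP b ρ) : IsOpen ((jj h).range : Set (aut (sc b))) := by
  haveI : Module.Finite ℝ L := Module.Finite.of_basis b
  refine Subgroup.isOpen_of_mem_nhds _ (g := 1) ?_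
  have h0 : RP0 b ρ :=
    { simple := h.simple, iso := h.iso, emb := h.emb.isEmbedding, lie := h.lie, full := h.full,
      gen := h.gen }
  have h1 : Tendsto (fun s : aut (sc b) => s.1.1) (𝓝 1) (𝓝 (1 : Matrix (Fin n) (Fin n) ℝ)) :=
    (cont_coe (b := b)).tendsto 1
  filter_upwards [h1.eventually (near_one h0 (H144.Rp.span_rp h))] with s hs
  obtain ⟨φ, hφ⟩ := (mem_aut b s.1).1 s.2
  obtain ⟨g, hg⟩ := hs ⟨(φ : L →ₗ[ℝ] L), ⟨by
    rw [Module.End.isUnit_iff]
    exact φ.bijective, fun x y => LieEquiv.map_lie φ x y⟩, hφ⟩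
  refine ⟨g, ?_⟩
  apply Subtype.ext
  apply Subtype.ext
  exact hg

theorem jj_range (h : RP b ρ) : ((jj h).range : Set (aut (sc b))) = connectedComponent 1 := by
  apply Set.Subset.antisymm
  · rintro _ ⟨g, rfl⟩
    have h1 := (jj_emb h).continuous.image_connectedComponent_subset 1
    rw [map_one] at h1
    exact h1 ⟨g, conn h g, rfl⟩
  · have h1 : IsClopen ((jj h).range : Set (aut (sc b))) :=
      ⟨Subgroup.isClosed_of_isOpen _ (jj_open h), jj_open h⟩
    exact h1.connectedComponent_subset (Subgroup.one_mem _)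

/-- `E(L)` is the identity component -/
theorem iso_comp (h : RP b ρ) :
    Nonempty (G ≃ₜ* Subgroup.connectedComponentOfOne (aut (sc b))) := by
  have hm : ∀ g, jj h g ∈ Subgroup.connectedComponentOfOne (aut (sc b)) := fun g => by
    show jj h g ∈ connectedComponent (1 : aut (sc b))
    rw [← jj_range h]
    exact ⟨g, rfl⟩
  let f : G →* Subgroup.connectedComponentOfOne (aut (sc b)) := (jj h).codRestrict _ hm
  have hf : IsEmbedding f := by
    refine IsEmbedding.of_comp (Continuous.subtype_mk (jj_emb h).continuous _)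
      continuous_subtype_val ?_
    exact jj_emb h
  have hs : Function.Surjective f := by
    rintro ⟨s, hs⟩
    have h1 : s ∈ ((jj h).range : Set (aut (sc b))) := by
      rw [jj_range h]; exact hs
    obtain ⟨g, hg⟩ := h1
    exact ⟨g, Subtype.ext hg⟩
  let e := MulEquiv.ofBijective f ⟨hf.injective, hs⟩
  have he : ∀ x, e x = f x := fun x => rfl
  refine ⟨{ e with continuous_toFun := hf.continuous, continuous_invFun := ?_ }⟩
  show Continuous e.symm
  rw [hf.continuous_iff]
  have h2 : (f ∘ e.symm) = id := by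
    funext x
    exact e.apply_symm_apply x
  rw [h2]
  exact continuous_id

theorem isAdj_rp (h : RP b ρ) : IsAdj G := by
  haveI := h.simple
  obtain ⟨r, b', wt, E, F, H, hR⟩ := H45.Rp.p6 h
  have h' : RP b' ρ :=
    { simple := h.simple, iso := h.iso, emb := H790.Mrg.emb_basis b b' h.emb, lie := h.lie,
      full := h.full, gen := h.gen }
  exact ⟨nc_of_chn hR.pos (H660.Rp.chn h' hR), L, _, _, inferInstance, n, b, aut (sc b), mem_aut b,
    iso_comp h⟩

end

/-- **The real case.** -/
theorem sub_real {G : Type} [Group G] [TopologicalSpace G] (h : IsLie ℝ G) : H35.Rp.Sub G := by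
  obtain ⟨L, i1, i2, n, b, ρ, h0⟩ := isLie_ra h
  haveI : Module.Finite ℝ L := Module.Finite.of_basis b
  have h1 : H720.Rp.RA b ρ := h0.conv
  have ht : IsTopologicalGroup G := H213.Rp.topGroup h1.emb
  exact ⟨ht, H720.Rp.Ng ρ, h1.normal, h1.fin', h1.opn, H259.Ad.isAdj_qf (isAdj_rp h1.rp0.rp)⟩

/-- **Every group of the class `UN.IsLieG` has an open normal subgroup of finite index which is a
factor.** -/
theorem sub_lieG {G : Type} [Group G] [TopologicalSpace G] (h : UN.IsLieG G) : H35.Rp.Sub G :=
  lieG_sub (fun _ _ _ h => sub_real h) h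

end Vale.Agent.P092.H35.Rr
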